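import Vale.Agent.P210Y.Jac

/-!
# P210Y: decay of the solutions where the equation is stiff
-/

open Metric Filter Topology Set
open scoped ContDiff
open Vale.Agent.P366.Stmt (E)
open Vale.Agent.P366M Vale.Agent.P366M.An Vale.Agent.P366M.Gr Vale.Agent.P366M.Y.C
open Vale.Agent.P210G

noncomputable section

namespace Vale.Agent.P210Y

variable {n : ℕ} {X : Type} [Mf0 n X] {g : Fld n X} {v : Fin n → X → ℝ} {K O : Set X}
  {w φ : X → ℝ} {x : X}

theorem abs_ev_nv (hg : Met g) (v : Fin n → X → ℝ) (w : X → ℝ) (x : X) :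
    |ev v (nv g w) x| ≤ √(iv g v v x) := by
  have h0 := w_pos hg w x
  refine Real.abs_le_sqrt ?_
  rw [ev_nv, div_pow, div_le_iff₀ (by positivity), w_sq hg]
  have h1 := iv_cs hg v (df w) x
  rw [iv_df] at h1
  nlinarith [iv_nonneg hg v x]

theorem hv_pd {w' : X → ℝ} {s : ℝ} (hs : s * s = 1)
    (h : ∀ᶠ y in 𝓝 x, ∀ i, pd i w y = s * pd i w' y) : hv g v w x = s * hv g v w' x := by
  rw [hv, hv, Dv_congr (Y := fun i y => s * nv g w' i y) fun i => h.mono fun y k => nv_pd hs k i,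
    Dv_const_mul]

theorem hv_neg : hv g v (fun y => -w y) x = -hv g v w x :=
  (hv_pd (s := -1) (by norm_num) (.of_forall fun _ i => by rw [pd_neg, neg_one_mul])).trans
    (neg_one_mul _)

/-- **the tall barrier**: near every point of `K` there is a higher point at which the mean
curvature is bounded above -/
theorem decay0 (hg : Met g) (hv' : CC ∞ v) (hK : IsCompact K) (hO : IsOpen O) (hKO : K ⊆ O) :
    ∃ Λ ≥ (0 : ℝ), ∀ x ∈ K, ∀ z, Smooth z → ∃ y ∈ O, z x ≤ z y ∧ hv g v z y ≤ Λ := by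
  refine bd_on hK (fun x a b hab h z hz => let ⟨y, h1, h2, h3⟩ := h z hz
    ⟨y, h1, h2, h3.trans hab⟩) fun p hp => ?_
  obtain ⟨e, he, h0, δ₀, δ0, hδ⟩ := exists_nu hg p
  have hG := hg.rep he
  obtain ⟨δ₁, δ1, h1⟩ := nhds_basis_closedBall.eventually_iff.1
    ((tendsto_symm he 0).eventually (hO.mem_nhds (h0 ▸ hKO hp)))
  obtain ⟨δ, d0, d1, d2⟩ : ∃ δ > (0 : ℝ), δ ≤ δ₀ ∧ 2 * δ ≤ δ₁ :=
    ⟨min δ₀ (δ₁ / 2), by positivity, min_le_left _ _, by linarith [min_le_right δ₀ (δ₁ / 2)]⟩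
  obtain ⟨C, C0, hC⟩ := bd_cont (isCompact_closedBall (0 : E n) (2 * δ))
    (f := fun y => ∑ k, ∑ i, ∑ j, |P366.Stmt.chr (rep e g) k i j y|)
    (continuous_finsetSum _ fun k _ => continuous_finsetSum _ fun i _ =>
      continuous_finsetSum _ fun j _ => (hG.sm_chr k i j).cont.abs)
  obtain ⟨C', -, hC'⟩ := bd_cont (isCompact_closedBall (0 : E n) (2 * δ))
    (cont_loc he (cd_iv hg le_rfl hv' hv').continuous.sqrt)
  refine ⟨(2 * n + 3) / δ + (2 * n + 3) * C + C', mem_of_superset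
    (h0 ▸ (openEmb_symm he).image_mem_nhds.2 (ball_mem_nhds _ d0)) ?_⟩
  rintro _ ⟨y₀, hy₀, rfl⟩ z hz
  have mem : ∀ y, ‖y - y₀‖ < δ → y ∈ closedBall (0 : E n) (2 * δ) := fun y hy => by
    have := norm_le_insert' y y₀
    rw [mem_ball_zero_iff] at hy₀
    rw [mem_closedBall_zero_iff]
    linarith
  obtain ⟨y, y1, y2, y3⟩ := barE (φ := loc e fun _ : X => (0 : ℝ)) (C := C) hG (hz e he) d0
    fun y hy => ⟨hδ y (closedBall_subset_closedBall (by linarith) (mem y hy)),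
      (le_abs_self _).trans (hC y (mem y hy)), by
        rw [← loc_gn he g (Smooth.diff cd_const), loc_apply, gn_zero fun i => pd_const _ _ _]
        exact C0⟩
  rw [← loc_hw hg he cd_const hz, P210C.hw_zero] at y3
  refine ⟨e.symm y, h1 (closedBall_subset_closedBall d2 (mem y y1)), y2, ?_⟩
  have k1 := (abs_le.1 ((abs_ev_nv hg v z (e.symm y)).trans
    ((le_abs_self _).trans (hC' y (mem y y1))))).1
  change dv g (nv g z) (e.symm y) ≤ _ at y3
  rw [hv, Dv]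
  linarith

/-- the same from below -/
theorem decay0' (hg : Met g) (hv' : CC ∞ v) (hK : IsCompact K) (hO : IsOpen O) (hKO : K ⊆ O) :
    ∃ Λ ≥ (0 : ℝ), ∀ x ∈ K, ∀ z, Smooth z → (∃ y ∈ O, z x ≤ z y ∧ hv g v z y ≤ Λ) ∧
      ∃ y ∈ O, z y ≤ z x ∧ -Λ ≤ hv g v z y := by
  obtain ⟨Λ, h0, h⟩ := decay0 hg hv' hK hO hKO
  refine ⟨Λ, h0, fun x hx z hz => ⟨h x hx z hz, ?_⟩⟩
  obtain ⟨y, h1, h2, h3⟩ := h x hx _ (CD.neg hz)
  rw [hv_neg] at h3
  exact ⟨y, h1, neg_le_neg_iff.1 h2, neg_le.1 h3⟩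

/-- **the barrier for the gradient**: near every point of `K` there is a steeper point at which the
normal derivative of the mean curvature is bounded above -/
theorem decay1 (hg : Met g) (hv' : CC ∞ v) (hK : IsCompact K) (hO : IsOpen O) (hKO : K ⊆ O) :
    ∃ C ≥ (0 : ℝ), ∀ x ∈ K, ∀ w, Smooth w → ∃ y ∈ O, iw g w y ≤ iw g w x ∧ gn g (iw g w) y ≤ C ∧
      iw g w y * dn g w (hv g v w) y ≤ C * (1 + gn g w y * iw g w y * |hv g v w y|) := by
  obtain ⟨χ, s, c, t, r, k⟩ := exists_cut hK hO hKO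
  obtain ⟨C₁, C1, h1⟩ := jac_v hg hv' c
  obtain ⟨C₂, C2, h2⟩ := Lv_bd hg hv' s c
  obtain ⟨C₃, C3, h3⟩ := bd_cont c (hg.cont_gn s.one)
  refine ⟨C₁ + C₂ + C₃, by positivity, fun x hx w hw => ?_⟩
  have su := sm_iw hg hw
  have sF : Smooth fun y => χ y - iw g w y := CD.sub s su
  have x1 : χ x = 1 := (k x hx).self_of_nhds
  have x2 : x ∈ tsupport χ := subset_tsupport _ (by simp [x1])
  obtain ⟨p, hp, hm⟩ := IsCompact.exists_isMaxOn c ⟨x, x2⟩ sF.cont.continuousOn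
  have p1 : χ x - iw g w x ≤ χ p - iw g w p := hm x2
  have u0 := iw_pos hg w p
  have u1 := iw_le hg w p
  have p2 : χ p ≠ 0 := by linarith [iw_le hg w x] |> fun h : 0 < χ p => h.ne'
  have m : IsLocalMax (fun y => χ y - iw g w y) p := hm.isLocalMax (mem_of_superset
    (s.cont.isOpen_support.mem_nhds p2) (subset_tsupport _))
  have e1 : ∀ i, pd i (iw g w) p = 1 * pd i χ p := fun i => by
    have := pd_of_isLocalMax m i
    rw [pd_sub (s.diff p) (su.diff p)] at this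
    linarith
  have e2 := (met_g hg hw).lap_nonpos (sF.c2 p) m
  rw [(met_g hg hw).lap_sub (s.c2 p) (su.c2 p)] at e2
  have e3 : iv (gb g 1 w) v (df (iw g w)) p = iv (gb g 1 w) v (df χ) p :=
    iv_congr (fun _ => rfl) fun i => (e1 i).trans (one_mul _)
  have g1 := (le_abs_self _).trans (h3 p hp)
  refine ⟨p, t hp, by linarith [(r p).2], by rw [gn_of_pd e1]; simp only [abs_one]; linarith, ?_⟩
  have k1 := (abs_le.1 (h1 p hp w hw)).2
  have k2 := (abs_le.1 (h2 p hp w hw)).1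
  have s0 : 0 ≤ gn g w p * iw g w p := mul_nonneg (gn_nonneg _ _ _) u0.le
  have k3 : hv g v w p * dn g w χ p ≤ C₃ * (gn g w p * iw g w p * |hv g v w p|) := by
    refine (le_abs_self _).trans ?_
    rw [abs_mul, mul_comm, ← mul_assoc, mul_comm C₃]
    exact mul_le_mul_of_nonneg_right ((abs_dn_le' hg w χ p).trans
      (mul_le_mul_of_nonneg_left g1 s0)) (abs_nonneg _)
  have k4 : C₁ * iw g w p * (1 - iw g w p ^ 2) ≤ C₁ := by
    rw [mul_assoc]
    exact mul_le_of_le_one_right C1 (by nlinarith [iw_sq hg w p])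
  have k5 := mul_nonneg u0.le (a2_nonneg hg hw p)
  have k6 := mul_nonneg (add_nonneg C1 C2) (mul_nonneg s0 (abs_nonneg (hv g v w p)))
  simp only [Lv] at k1 k2
  nlinarith

theorem pd_comp₂ {Φ : ℝ → ℝ → ℝ} {a b : ℝ} {u : X → ℝ} (hw : DAt w x) (hu : DAt u x)
    (h : HasFDerivAt (fun q : ℝ × ℝ => Φ q.1 q.2)
      (a • ContinuousLinearMap.fst ℝ ℝ ℝ + b • ContinuousLinearMap.snd ℝ ℝ ℝ) (w x, u x))
    (i : Fin n) : pd i (fun y => Φ (w y) (u y)) x = a * pd i w x + b * pd i u x := by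
  have d : HasFDerivAt (loc (ch x) fun y => (w y, u y)) ((fd w x).prod (fd u x)) (pt x) :=
    hw.hasFDerivAt.prodMk hu.hasFDerivAt
  have d2 : HasFDerivAt (loc (ch x) fun y => Φ (w y) (u y)) _ (pt x) :=
    HasFDerivAt.comp (pt x) (g := fun q : ℝ × ℝ => Φ q.1 q.2) (by rwa [loc_pt]) d
  rw [pd_eq d2.differentiableAt, fd, d2.fderiv, pd_eq hw, pd_eq hu]
  simp

theorem stiff_le {Φ : ℝ → ℝ → ℝ} {I : Set ℝ} {A B : ℝ} (hI : Convex ℝ I)
    (h : ∀ t ∈ I, ∀ s ∈ Icc (0 : ℝ) 1, ∃ a b, A ≤ a ∧ |b| ≤ B ∧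
      HasFDerivAt (fun q : ℝ × ℝ => Φ q.1 q.2)
        (a • ContinuousLinearMap.fst ℝ ℝ ℝ + b • ContinuousLinearMap.snd ℝ ℝ ℝ) (t, s))
    {t t' s s' : ℝ} (ht : t ∈ I) (ht' : t' ∈ I) (hs : s ∈ Icc (0 : ℝ) 1) (hs' : s' ∈ Icc (0 : ℝ) 1)
    (k : t ≤ t') : A * (t' - t) - B * |s' - s| ≤ Φ t' s' - Φ t s := by
  choose! a b h1 h2 h3 using h
  have m1 : ∀ θ ∈ Icc (0 : ℝ) 1, t + θ * (t' - t) ∈ I := fun θ hθ => by
    simpa using hI.add_smul_sub_mem ht ht' hθ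
  have m2 : ∀ θ ∈ Icc (0 : ℝ) 1, s + θ * (s' - s) ∈ Icc (0 : ℝ) 1 := fun θ hθ => by
    simpa using (convex_Icc (0 : ℝ) 1).add_smul_sub_mem hs hs' hθ
  have d : ∀ θ ∈ Icc (0 : ℝ) 1, HasDerivAt (fun θ : ℝ => Φ (t + θ * (t' - t)) (s + θ * (s' - s)))
      (a (t + θ * (t' - t)) (s + θ * (s' - s)) * (t' - t) +
        b (t + θ * (t' - t)) (s + θ * (s' - s)) * (s' - s)) θ := fun θ hθ => by
    have := (h3 _ (m1 θ hθ) _ (m2 θ hθ)).comp_hasDerivAt
      (f := fun θ : ℝ => (t + θ * (t' - t), s + θ * (s' - s))) θ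
      (((hasDerivAt_mul_const (t' - t)).const_add t).prodMk
        ((hasDerivAt_mul_const (s' - s)).const_add s))
    simp only [add_apply, smul_apply,
      ContinuousLinearMap.coe_fst', ContinuousLinearMap.coe_snd', smul_eq_mul] at this
    exact this
  obtain ⟨θ, hθ, e⟩ := exists_hasDerivAt_eq_slope _ _ zero_lt_one
    (fun θ hθ => (d θ hθ).continuousAt.continuousWithinAt) fun θ hθ => d θ (Ioo_subset_Icc_self hθ)
  have hθ' := Ioo_subset_Icc_self hθ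
  simp only [one_mul, zero_mul, add_zero, add_sub_cancel, sub_zero, div_one] at e
  have k1 := mul_le_mul_of_nonneg_right (h1 _ (m1 θ hθ') _ (m2 θ hθ')) (sub_nonneg.2 k)
  have k2 := mul_le_mul_of_nonneg_right (h2 _ (m1 θ hθ') _ (m2 θ hθ')) (abs_nonneg (s' - s))
  rw [← abs_mul] at k2
  linarith [neg_abs_le (b (t + θ * (t' - t)) (s + θ * (s' - s)) * (s' - s))]

/-- **DECAY**: the solutions of `hv w = Φ (w, 1 / W)` on `O`, with `Φ_t ≥ A`, `|Φ_u| ≤ B`,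
`Φ (c, 1) = 0`, are `C¹`-close to the constant `c` on `K` if `A` is large -/
theorem decay (hg : Met g) (hv' : CC ∞ v) (hK : IsCompact K) (hO : IsOpen O) (hKO : K ⊆ O)
    (B : ℝ) : ∃ Λ ≥ (0 : ℝ), ∀ ε > (0 : ℝ), ∃ A₀ > (0 : ℝ), ∀ A, A₀ ≤ A → ∀ (Φ : ℝ → ℝ → ℝ)
      (I : Set ℝ) (c : ℝ) (w : X → ℝ), Convex ℝ I → c ∈ I → Φ c 1 = 0 →
      (∀ t ∈ I, ∀ s ∈ Icc (0 : ℝ) 1, ∃ a b, A ≤ a ∧ |b| ≤ B ∧
        HasFDerivAt (fun q : ℝ × ℝ => Φ q.1 q.2)
          (a • ContinuousLinearMap.fst ℝ ℝ ℝ + b • ContinuousLinearMap.snd ℝ ℝ ℝ) (t, s)) →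
      Smooth w → (∀ x ∈ O, w x ∈ I ∧ hv g v w x = Φ (w x) (ww g 1 w x)⁻¹) →
      ∀ x ∈ K, |w x - c| ≤ ε ∧ ip g w w x ≤ ε ∧ |hv g v w x| ≤ Λ := by
  obtain ⟨K₁, c1, c2, c3⟩ := exists_compact_between hK hO hKO
  obtain ⟨Λ, Λ0, h0⟩ := decay0' hg hv' c1 hO c3
  obtain ⟨C, C0, h1⟩ := decay1 hg hv' hK isOpen_interior c2
  have B0 := abs_nonneg B
  obtain ⟨D, hD⟩ : ∃ D, D = Λ + 2 * |B| + C * (1 + (Λ + |B|)) + |B| * C + 1 := ⟨_, rfl⟩
  have p1 : 0 ≤ C * (1 + (Λ + |B|)) := by positivity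
  have p2 : 0 ≤ |B| * C := by positivity
  have D0 : 0 < D := by linarith
  refine ⟨Λ + |B|, by positivity, fun ε ε0 => ⟨D * (1 + ε) / ε, by positivity,
    fun A hA Φ I c w hI hc h2 h3 hw h4 x hx => ?_⟩⟩
  have A0 : 0 < A := lt_of_lt_of_le (by positivity) hA
  rw [div_le_iff₀ ε0] at hA
  have u := P210C.winv hg w
  have b : ∀ s ∈ Icc (0 : ℝ) 1, ∀ s' ∈ Icc (0 : ℝ) 1, B * |s' - s| ≤ |B| := fun s hs s' hs' =>
    (mul_le_mul_of_nonneg_right (le_abs_self B) (abs_nonneg _)).trans (mul_le_of_le_one_right B0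
      (abs_le.2 ⟨by linarith [hs.2, hs'.1], by linarith [hs.1, hs'.2]⟩))
  have k0 : ∀ x ∈ O, ∀ y ∈ O, w x ≤ w y → hv g v w x ≤ hv g v w y + |B| := fun x hx y hy k => by
    have := stiff_le hI h3 (h4 x hx).1 (h4 y hy).1 (u x) (u y) k
    rw [← (h4 x hx).2, ← (h4 y hy).2] at this
    linarith [b _ (u x) _ (u y), mul_nonneg A0.le (sub_nonneg.2 k)]
  have k1 : ∀ x ∈ K₁, |hv g v w x| ≤ Λ + |B| := fun x hx => by
    obtain ⟨⟨y, y1, y2, y3⟩, z, z1, z2, z3⟩ := h0 x hx w hw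
    exact abs_le.2 ⟨by linarith [k0 z z1 x (c3 hx) z2], by linarith [k0 x (c3 hx) y y1 y2]⟩
  have x1 := interior_subset (c2 hx)
  have i1 : (1 : ℝ) ∈ Icc (0 : ℝ) 1 := ⟨zero_le_one, le_rfl⟩
  have q : ∀ t, A * t ≤ D → (1 + ε) * t ≤ ε := fun t ht => le_of_mul_le_mul_left (by
    nlinarith) A0
  refine ⟨?_, ?_, k1 x x1⟩
  · have k2 : A * |w x - c| ≤ D := by
      have a1 := abs_le.1 (k1 x x1)
      rcases le_total c (w x) with k | k
      · have := stiff_le hI h3 hc (h4 x (hKO hx)).1 i1 (u x) k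
        rw [← (h4 x (hKO hx)).2, h2] at this
        rw [abs_of_nonneg (sub_nonneg.2 k)]
        linarith [b _ i1 _ (u x)]
      · have := stiff_le hI h3 (h4 x (hKO hx)).1 hc (u x) i1 k
        rw [← (h4 x (hKO hx)).2, h2] at this
        rw [abs_of_nonpos (sub_nonpos.2 k), neg_sub]
        linarith [b _ (u x) _ i1]
    nlinarith [q _ k2, abs_nonneg (w x - c)]
  · obtain ⟨y, y1, y2, y3, y4⟩ := h1 x hx w hw
    have y0 := c3 (interior_subset y1)
    obtain ⟨a, b', a1, a2, a3⟩ := h3 _ (h4 y y0).1 _ (u y)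
    have e1 : dn g w (hv g v w) y = a * dn g w w y + b' * dn g w (iw g w) y :=
      dn_lin fun i => (pd_congr ((hO.eventually_mem y0).mono fun z hz => (h4 z hz).2) i).trans
        (pd_comp₂ (hw.diff y) ((sm_iw hg hw).diff y) a3 i)
    have u0 := iw_pos hg w y
    have u1 := iw_le hg w y
    have s1 : gn g w y * iw g w y ≤ 1 := by
      rw [← div_eq_mul_inv, div_le_one (w_pos hg w y)]; exact gn_le_w hg w y
    have k2 : gn g w y * iw g w y * |hv g v w y| ≤ Λ + |B| :=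
      (mul_le_of_le_one_left (abs_nonneg _) s1).trans (k1 y (interior_subset y1))
    have k3 : |iw g w y * (b' * dn g w (iw g w) y)| ≤ |B| * C := by
      rw [abs_mul, abs_of_pos u0, abs_mul]
      exact (mul_le_of_le_one_left (by positivity) u1).trans (mul_le_mul (a2.trans (le_abs_self _))
        ((abs_dn_le hg w _ y).trans y3) (abs_nonneg _) B0)
    rw [e1, mul_add, mul_left_comm, iw_dn hg] at y4
    have k4 : A * (1 - iw g w y ^ 2) ≤ D := by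
      linarith [mul_le_mul_of_nonneg_right a1 (iw_sq hg w y), (abs_le.1 k3).1,
        mul_le_mul_of_nonneg_left (add_le_add_left k2 1) C0]
    have k5 := q _ k4
    have k6 : iw g w y ^ 2 ≤ iw g w x ^ 2 := pow_le_pow_left₀ u0.le y2 2
    have k7 := ip_iw hg w x
    have k8 := pow_pos (iw_pos hg w x) 2
    refine le_of_mul_le_mul_right ?_ k8
    nlinarith

end Vale.Agent.P210Y
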