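import Vale.Agent.P210C.Jet
import Vale.Agent.P210G.Gid

/-!
# P210Y: PATH; a continuous family of metrics, each with some good drift, gives a chain of segments
-/

open Filter Topology Set
open scoped ContDiff
open Vale.Agent.P366M Vale.Agent.P366M.Gr Vale.Agent.P366M.Y.C
open Vale.Agent.P210G Vale.Agent.P210C

noncomputable section

namespace Vale.Agent.P210Y

/-- induction along an interval, forward steps only -/
theorem real_ind {a b : ℝ} (hab : a ≤ b) {r : ℝ → Prop} (h0 : r a)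
    (h : ∀ p ∈ Icc a b, ∀ᶠ q in 𝓝[Icc a b] p, (q ≤ p → r q → r p) ∧ (p ≤ q → r p → r q)) : r b := by
  have key : Icc a b ⊆ {t | ∀ q ∈ Icc a b, q ≤ t → r q} := by
    refine IsClosed.Icc_subset_of_forall_mem_nhdsWithin ?_ (fun q hq k => by
      rwa [le_antisymm k hq.1]) fun p hp => ?_
    · refine isClosed_of_closure_subset fun p hp => ?_
      have hI : p ∈ Icc a b := closure_minimal inter_subset_right isClosed_Icc hp
      have lt : ∀ q ∈ Icc a b, q < p → r q := fun q hq k => by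
        obtain ⟨t, t1, t2⟩ := mem_closure_iff_nhds.1 hp _ (Ioi_mem_nhds k)
        exact t2.1 q hq (le_of_lt t1)
      refine ⟨fun q hq k => k.lt_or_eq.elim (lt q hq) fun k => ?_, hI⟩
      rcases hI.1.eq_or_lt with e | e
      · rwa [k, ← e]
      · have : (𝓝[Ioo a p] p).NeBot := right_nhdsWithin_Ioo_neBot e
        obtain ⟨t, t1, t2⟩ := (((h p hI).filter_mono (nhdsWithin_mono _ (Ioo_subset_Icc_self.trans
          (Icc_subset_Icc_right hI.2)))).and self_mem_nhdsWithin).exists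
        exact k ▸ t1.1 t2.2.le (lt t ⟨t2.1.le, t2.2.le.trans hI.2⟩ t2.2)
    · have hI : p ∈ Icc a b := Ico_subset_Icc_self hp.2
      obtain ⟨c, c1, c2⟩ := mem_nhdsGE_iff_exists_Icc_subset.1
        ((h p hI).filter_mono (le_of_eq (nhdsWithin_Icc_eq_nhdsGE hp.2.2).symm |>.trans
          (nhdsWithin_mono _ (Icc_subset_Icc_left hI.1))))
      filter_upwards [Ioc_mem_nhdsGT c1] with t ht q hq k
      exact (le_total q p).elim (hp.1 q hq) fun k' =>
        (c2 ⟨k', k.trans ht.2⟩).2 k' (hp.1 p hI le_rfl)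
  exact key ⟨hab, le_rfl⟩ b ⟨hab, le_rfl⟩ le_rfl

variable {n : ℕ} {X : Type} [Mf0 n X]

/-- concavity in the drift along a segment -/
theorem Rv_seg {g : Fld n X} {v v' : Fin n → X → ℝ} (hg : Met g) (hv : CC ∞ v) (hv' : CC ∞ v')
    {s : ℝ} (hs : s ∈ Icc (0 : ℝ) 1) (x : X) : (1 - s) * Rv g v x + s * Rv g v' x ≤
      Rv g (fun j x => (1 - s) * v j x + s * v' j x) x := by
  simpa using Rv_conc hg (x := x) Finset.univ (t := ![1 - s, s]) (V := ![v, v'])
    (fun k _ => by fin_cases k; exacts [sub_nonneg.2 hs.2, hs.1])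
    (Fin.forall_fin_two.2 ⟨dV_sh hg hv _, dV_sh hg hv' _⟩) (by simp)

/-- **PATH**: the metrics `g p` depend continuously on `p`, the drifts `v p` are arbitrary.  Any
relation which holds for the good segments from `(g p, v q)` to `(g p', v q')`, `p ≤ p'`, gives a
chain from `(g a, v a)` to `(g b, v b)` -/
theorem path {a b ε : ℝ} (hab : a ≤ b) {g : ℝ → Fld n X} {v : ℝ → Fin n → X → ℝ} {K : Set X}
    (hK : IsCompact K) (hε : 0 < ε) {β : X → ℝ} (hm : ∀ p ∈ Icc a b, Met (g p) ∧ CC ∞ (v p))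
    (hc : ∀ p ∈ Icc a b, CvG (𝓝[Icc a b] p) p 2 g)
    (hR : ∀ p ∈ Icc a b, ∀ x ∈ K, β x ≤ Rv (g p) (v p) x)
    {r : Fld n X × (Fin n → X → ℝ) → Fld n X × (Fin n → X → ℝ) → Prop}
    (hr : ∀ p ∈ Icc a b, ∀ p' ∈ Icc a b, ∀ q ∈ Icc a b, ∀ q' ∈ Icc a b, p ≤ p' →
      (∀ s ∈ Icc (0 : ℝ) 1, ∀ x ∈ K, β x - ε ≤
        Rv (fun x i j => (1 - s) * g p x i j + s * g p' x i j)
          (fun j x => (1 - s) * v q j x + s * v q' j x) x) → r (g p, v q) (g p', v q')) :
    Relation.ReflTransGen r (g a, v a) (g b, v b) := by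
  refine real_ind hab (r := fun p => Relation.ReflTransGen r (g a, v a) (g p, v p)) .refl
    fun p hp => ?_
  have lo : pure p ≤ 𝓝[Icc a b] p := pure_le_nhdsWithin hp
  filter_upwards [seg_Rv (v := fun _ => v p) (hc p hp) (cvC_fix lo (hm p hp).2)
    (mem_of_superset self_mem_nhdsWithin fun q hq => ⟨(hm q hq).1, (hm p hp).2⟩) hK hε,
    self_mem_nhdsWithin] with q k hq
  have k1 : ∀ s ∈ Icc (0 : ℝ) 1, ∀ x ∈ K, β x - ε ≤
      Rv (fun x i j => (1 - s) * g p x i j + s * g q x i j)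
        (fun j x => (1 - s) * v p j x + s * v p j x) x := fun s hs x hx => by
    linarith [(abs_le.1 (k s hs x hx)).1, hR p hp x hx]
  have k2 : ∀ x ∈ K, β x - ε ≤ Rv (g q) (v p) x := fun x hx => by simpa using k1 1 (by simp) x hx
  have k3 : ∀ {u u' : Fin n → X → ℝ}, CC ∞ u → CC ∞ u' → (∀ x ∈ K, β x - ε ≤ Rv (g q) u x) →
      (∀ x ∈ K, β x - ε ≤ Rv (g q) u' x) → ∀ s ∈ Icc (0 : ℝ) 1, ∀ x ∈ K, β x - ε ≤
      Rv (fun x i j => (1 - s) * g q x i j + s * g q x i j)
        (fun j x => (1 - s) * u j x + s * u' j x) x := fun hu hu' h h' s hs x hx => by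
    simp only [← add_mul, sub_add_cancel, one_mul]
    refine le_trans ?_ (Rv_seg (hm q hq).1 hu hu' hs x)
    nlinarith [h x hx, h' x hx, hs.1, hs.2]
  have k4 : ∀ x ∈ K, β x - ε ≤ Rv (g q) (v q) x := fun x hx => by linarith [hR q hq x hx]
  refine ⟨fun le c => (c.tail (hr q hq q hq q hq p hp le_rfl
    (k3 (hm q hq).2 (hm p hp).2 k4 k2))).tail (hr q hq p hp p hp p hp le fun s hs x hx => ?_),
    fun le c => (c.tail (hr p hp q hq p hp p hp le k1)).tail (hr q hq q hq p hp q hq le_rfl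
      (k3 (hm p hp).2 (hm q hq).2 k2 k4))⟩
  simpa only [sub_sub_cancel, add_comm] using k1 (1 - s) ⟨sub_nonneg.2 hs.2, sub_le_self _ hs.1⟩ x hx

end Vale.Agent.P210Y
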