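import Vale.Agent.P210Y.Path
import Vale.Agent.P210E.Defs

/-!
# P210Y: the statement `P210E.PATH`
-/

open Filter Topology Set
open scoped ContDiff
open Vale.Agent.P366M Vale.Agent.P366M.Gr Vale.Agent.P366M.Y.C
open Vale.Agent.P210G Vale.Agent.P210U Vale.Agent.P210E

noncomputable section

namespace Vale.Agent.P210Y

variable {n : ℕ} {M : Type} [Mf0 n M] {g₀ g g' : Fld n M} {s : ℝ}

theorem met_mix (hg : Met g) (hg' : Met g') (hs : s ∈ Icc (0 : ℝ) 1) :
    Met fun x i j => (1 - s) * g x i j + s * g' x i j := by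
  refine ⟨(SmT.smul cd_const hg.sm).add (SmT.smul cd_const hg'.sm), fun x i j => by
    rw [hg.sy, hg'.sy], fun x => ?_⟩
  rcases hs.1.eq_or_lt with q | q
  · simpa [mat, ← q] using hg.pos x
  · exact Matrix.PosDef.posSemidef_add ((hg.pos x).posSemidef.smul (sub_nonneg.2 hs.2))
      ((hg'.pos x).smul q)

omit [Mf0 n M] in
theorem up_mix (hg : Up g₀ g) (hg' : Up g₀ g') (hs : s ∈ Icc (0 : ℝ) 1) :
    Up g₀ fun x i j => (1 - s) * g x i j + s * g' x i j := fun x ξ => by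
  have e : ∑ i, ∑ j, ((1 - s) * g x i j + s * g' x i j) * ξ i * ξ j =
      (1 - s) * ∑ i, ∑ j, g x i j * ξ i * ξ j + s * ∑ i, ∑ j, g' x i j * ξ i * ξ j := by
    simp only [Finset.mul_sum, ← Finset.sum_add_distrib]
    exact Finset.sum_congr rfl fun _ _ => Finset.sum_congr rfl fun _ _ => by ring
  rw [e]
  nlinarith [hg x ξ, hg' x ξ, hs.1, hs.2]

/-- **PATH** -/
theorem pathE : PATH := fun _ _ _ _ _ _ _ _ hK h _ η0 =>
  path zero_le_one hK η0 (fun p hp => ⟨(h p hp).1.met, (h p hp).1.cc⟩) (fun p hp => (h p hp).2.2)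
    (fun p hp => (h p hp).1.le) fun p hp p' hp' q hq q' hq' _ k =>
      ⟨fun x hx => ⟨((h p hp).2.1 x hx).1.symm.trans ((h p' hp').2.1 x hx).1, fun i =>
        (((h q hq).2.1 x hx).2 i).symm.trans (((h q' hq').2.1 x hx).2 i)⟩, fun s hs =>
        ⟨met_mix (h p hp).1.met (h p' hp').1.met hs,
          (CC.smul cd_const (h q hq).1.cc).add (CC.smul cd_const (h q' hq').1.cc),
          up_mix (h p hp).1.up (h p' hp').1.up hs, k s hs⟩⟩

end Vale.Agent.P210Y
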