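import Vale.Agent.P210E.Defs
import Vale.Agent.P210J.Trans

/-!
# P210Y: the statement `P210E.MIX`
-/

open Filter Topology Set Real
open scoped ContDiff
open Vale.Agent.P366M Vale.Agent.P366M.Gr Vale.Agent.P366M.Y.C
open Vale.Agent.P210G Vale.Agent.P210E
open Vale.Agent.P210J (Slow exists_plateau)

noncomputable section

namespace Vale.Agent.P210Y

variable {n : ℕ} {M : Type} [Mf0 n M] {γ : Fld n M} {a b : Fin n → M → ℝ} {f : M → ℝ}
  {θ : ℝ → ℝ} {δ : ℝ}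

/-- the drift `a` where `θ ∘ f = 1`, the drift `b` where `θ ∘ f = 0` -/
def smx (θ : ℝ → ℝ) (f : M → ℝ) (a b : Fin n → M → ℝ) : Fin n → M → ℝ := fun i y =>
  sin (π / 2 * θ (f y)) ^ 2 * a i y + cos (π / 2 * θ (f y)) ^ 2 * b i y

omit [Mf0 n M] in
theorem smx_one {x : M} (h : θ (f x) = 1) (i : Fin n) : smx θ f a b i x = a i x := by simp [smx, h]

omit [Mf0 n M] in
theorem smx_zero {x : M} (h : θ (f x) = 0) (i : Fin n) : smx θ f a b i x = b i x := by
  simp [smx, h]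

theorem cc_smx (hθ : ContDiff ℝ ∞ θ) (hf : Smooth f) (ha : CC ∞ a) (hb : CC ∞ b) :
    CC ∞ (smx θ f a b) :=
  (CC.smul (ContDiff.compM (φ := fun t => sin (π / 2 * θ t) ^ 2) (by fun_prop) hf) ha).add
    (CC.smul (ContDiff.compM (φ := fun t => cos (π / 2 * θ t) ^ 2) (by fun_prop) hf) hb)

theorem Rv_smx (hγ : Met γ) (hθ : Slow δ θ) (hf : Smooth f) (ha : CC ∞ a) (hb : CC ∞ b) {x : M}
    {c : ℝ} (h1 : θ (f x) ≠ 0 → c ≤ Rv γ a x) (h2 : θ (f x) ≠ 1 → c ≤ Rv γ b x) :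
    c - 16 * δ ^ 2 * gn γ f x ^ 2 ≤ Rv γ (smx θ f a b) x := by
  have d := ((hθ.sm.differentiable (by simp) (f x)).hasDerivAt).const_mul (π / 2)
  have k := Rv_sin hγ (β := fun y => π / 2 * θ (f y)) (x := x) (a := a) (b := b)
    (Smooth.diff (ContDiff.compM (φ := fun t => π / 2 * θ t) (contDiff_const.mul hθ.sm) hf) x)
    (dV_sh hγ ha x) (dV_sh hγ hb x)
  rw [ip_comp_left d (hf.diff x), ip_comp_right d (hf.diff x), ← hγ.gn_sq] at k
  refine le_trans ?_ k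
  have e1 : sin (π / 2 * θ (f x)) ^ 2 * c ≤ sin (π / 2 * θ (f x)) ^ 2 * Rv γ a x := by
    by_cases q : θ (f x) = 0
    · simp [q]
    · exact mul_le_mul_of_nonneg_left (h1 q) (sq_nonneg _)
  have e2 : cos (π / 2 * θ (f x)) ^ 2 * c ≤ cos (π / 2 * θ (f x)) ^ 2 * Rv γ b x := by
    by_cases q : θ (f x) = 1
    · simp [q]
    · exact mul_le_mul_of_nonneg_left (h2 q) (sq_nonneg _)
  have e3 : (π * deriv θ (f x)) ^ 2 ≤ 16 * δ ^ 2 := by
    rw [mul_pow]
    exact mul_le_mul (by nlinarith [pi_pos, pi_le_four]) (sq_le_sq' (abs_le.1 (hθ.d1 _)).1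
      (abs_le.1 (hθ.d1 _)).2) (sq_nonneg _) (by norm_num)
  have e4 := mul_le_mul_of_nonneg_right e3 (sq_nonneg (gn γ f x))
  have e5 := sin_sq_add_cos_sq (π / 2 * θ (f x))
  have e6 : c = sin (π / 2 * θ (f x)) ^ 2 * c + cos (π / 2 * θ (f x)) ^ 2 * c := by
    rw [← add_mul, e5, one_mul]
  linarith

/-- **MIX** -/
theorem mixE : MIX := by
  obtain ⟨θ, T, -, T0, hθ, θ1, θ0⟩ := exists_plateau (δ := 1 / 16) (by norm_num) 0
  refine ⟨exp T, one_le_exp T0.le, fun η η0 S₁ => ?_⟩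
  obtain ⟨β, S, S1, -, hβ, β1, β0⟩ := exists_plateau (δ := √η / 4) (by positivity) (S₁ + 1)
  refine ⟨S, by linarith, fun n M _ γ v a b u W V hγ hv ha hb hu hW W1 gu Ra Rb => ?_⟩
  have W0 : ∀ x, 0 < W x := fun x => one_pos.trans_le (W1 x)
  have sl : Smooth fun x => log (W x) := CD.log hW fun x => (W0 x).ne'
  have hc := cc_smx hθ.sm sl hb ha
  have Rc : ∀ x, |u x| ≤ S → V x ≤ Rv γ (smx θ (fun x => log (W x)) b a) x := fun x hx => by
    have k := Rv_smx hγ hθ sl hb ha (fun q => Rb x hx (le_of_not_gt fun k => q (θ0 _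
      (((le_log_iff_exp_le (W0 x)).2 k.le).trans (le_abs_self _))))) fun _ => Ra x hx
    rw [gn_comp (hasDerivAt_log (W0 x).ne') (hW.diff x), abs_of_pos (inv_pos.2 (W0 x)),
      ← div_eq_inv_mul] at k
    nlinarith [sq_nonneg (gn γ W x / W x)]
  have loss : ∀ x, 16 * (√η / 4) ^ 2 * gn γ u x ^ 2 ≤ η := fun x => by
    have : gn γ u x ^ 2 ≤ 1 := by nlinarith [gu x, gn_nonneg γ u x]
    rw [div_pow, sq_sqrt η0.le]
    nlinarith
  refine ⟨smx β u (smx θ (fun x => log (W x)) b a) v, cc_smx hβ.sm hu hc hv,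
    fun x hx => smx_zero (β0 _ hx.le), fun x hx => ?_, fun x hx => ⟨?_, fun k i => ?_⟩⟩
  · linarith [Rv_smx hγ hβ hu hc hv (fun _ => (min_le_right _ _).trans (Rc x hx))
      fun _ => min_le_left (Rv γ v x) (V x), loss x]
  · linarith [Rv_smx hγ hβ hu hc hv (fun _ => Rc x (by linarith))
      fun q => (q (β1 _ (by linarith))).elim, loss x]
  · filter_upwards [k, hu.cont.abs.continuousAt.eventually_lt continuousAt_const
      (hx.trans_lt (lt_add_one S₁))] with y p q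
    rw [smx_one (β1 _ q.le), smx_one (θ1 _ (by simp [p]))]

end Vale.Agent.P210Y
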