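import Vale.Agent.P210Y.Decay

/-!
# P210Y: forms of the decay estimates
-/

open Metric Filter Topology Set
open scoped ContDiff
open Vale.Agent.P366.Stmt (E)
open Vale.Agent.P366M Vale.Agent.P366M.An Vale.Agent.P366M.Gr Vale.Agent.P366M.Y.C
open Vale.Agent.P210G

noncomputable section

namespace Vale.Agent.P210Y

variable {n : ℕ} {X : Type} [Mf0 n X] {g : Fld n X} {v : Fin n → X → ℝ} {K O : Set X}
  {w φ : X → ℝ} {x : X}

/-- **DEC1** -/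
theorem dec1 (hg : Met g) (hv' : CC ∞ v) (hK : IsCompact K) (hO : IsOpen O) (hKO : K ⊆ O) :
    ∃ C₀ ≥ (0 : ℝ), ∀ A > (0 : ℝ), ∀ z, Smooth z →
      (∀ x ∈ O, min (A * z x) (C₀ + 1) ≤ hv g v z x) → ∀ x ∈ K, z x ≤ C₀ / A := by
  obtain ⟨Λ, h0, h⟩ := decay0 hg hv' hK hO hKO
  refine ⟨Λ, h0, fun A A0 z hz k x hx => ?_⟩
  obtain ⟨y, y1, y2, y3⟩ := h x hx z hz
  rcases min_le_iff.1 ((k y y1).trans y3) with k | k
  · exact y2.trans ((le_div_iff₀' A0).2 k)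
  · linarith

/-- **DEC2** -/
theorem dec2 (hg : Met g) (hv' : CC ∞ v) (hK : IsCompact K) (hO : IsOpen O) (hKO : K ⊆ O)
    (Λ : ℝ) {ε : ℝ} (ε0 : 0 < ε) : ∃ A₀ > (0 : ℝ), ∀ w, Smooth w →
      (∀ x ∈ O, |hv g v w x| ≤ Λ ∧ A₀ * dn g w w x ≤ dn g w (hv g v w) x) →
      ∀ x ∈ K, ip g w w x ≤ ε := by
  obtain ⟨C, C0, h1⟩ := decay1 hg hv' hK hO hKO
  have L0 := abs_nonneg Λ
  refine ⟨(C * (1 + |Λ|) + 1) * (1 + ε) / ε, by positivity, fun w hw h x hx => ?_⟩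
  obtain ⟨y, y1, y2, -, y4⟩ := h1 x hx w hw
  have u0 := iw_pos hg w y
  have s1 : gn g w y * iw g w y ≤ 1 := by
    rw [← div_eq_mul_inv, div_le_one (w_pos hg w y)]; exact gn_le_w hg w y
  have k2 : gn g w y * iw g w y * |hv g v w y| ≤ |Λ| :=
    (mul_le_of_le_one_left (abs_nonneg _) s1).trans ((h y y1).1.trans (le_abs_self _))
  have k3 := mul_le_mul_of_nonneg_left (h y y1).2 u0.le
  rw [mul_left_comm, iw_dn hg, div_mul_eq_mul_div, div_le_iff₀ ε0] at k3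
  have k4 := mul_le_mul_of_nonneg_right (y4.trans
    (mul_le_mul_of_nonneg_left (add_le_add_right k2 1) C0)) ε0.le
  have p : 0 < C * (1 + |Λ|) + 1 := by positivity
  have k5 : (1 + ε) * (1 - iw g w y ^ 2) ≤ ε := le_of_mul_le_mul_left (by nlinarith) p
  have k6 : iw g w y ^ 2 ≤ iw g w x ^ 2 := pow_le_pow_left₀ u0.le y2 2
  have k7 := ip_iw hg w x
  refine le_of_mul_le_mul_right ?_ (pow_pos (iw_pos hg w x) 2)
  nlinarith

end Vale.Agent.P210Y
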