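import Vale.Agent.P210C.Main
import Vale.Agent.P210G.Gid
import Vale.Agent.P366N.Bar

/-!
# P210Y: the equation of Jacobi with a drift; the operator of the graph on fixed functions
-/

open Metric Filter Topology Set
open scoped ContDiff
open Vale.Agent.P366.Stmt (E)

noncomputable section

namespace Vale.Agent.P210Y

variable {n : ℕ}

/-- from local constants to a constant on a compact set -/
theorem bd_on {Y : Type} [TopologicalSpace Y] {K : Set Y} (hK : IsCompact K) {P : Y → ℝ → Prop}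
    (mono : ∀ x a b, a ≤ b → P x a → P x b) (h : ∀ x ∈ K, ∃ C, ∀ᶠ y in 𝓝 x, P y C) :
    ∃ C ≥ (0 : ℝ), ∀ x ∈ K, P x C :=
  hK.induction_on (p := fun s => ∃ C ≥ (0 : ℝ), ∀ x ∈ s, P x C) ⟨0, le_rfl, by simp⟩
    (fun _ _ hst ⟨C, C0, k⟩ => ⟨C, C0, fun x hx => k x (hst hx)⟩)
    (fun _ _ ⟨C, C0, k⟩ ⟨C', _, k'⟩ => ⟨max C C', le_max_of_le_left C0, fun x hx => hx.elim
      (fun a => mono x _ _ (le_max_left _ _) (k x a)) fun a => mono x _ _ (le_max_right _ _) (k' x a)⟩)
    fun x hx => let ⟨C, k⟩ := h x hx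
      ⟨_, mem_nhdsWithin_of_mem_nhds k, |C|, abs_nonneg _, fun y hy => mono y _ _ (le_abs_self _) hy⟩

theorem bd_cont {Y : Type} [TopologicalSpace Y] {K : Set Y} (hK : IsCompact K) {f : Y → ℝ}
    (hf : Continuous f) : ∃ C ≥ (0 : ℝ), ∀ x ∈ K, |f x| ≤ C := by
  obtain ⟨C, hC⟩ := hK.exists_bound_of_continuousOn hf.continuousOn
  exact ⟨|C|, abs_nonneg _, fun x hx => (hC x hx).trans (le_abs_self _)⟩

section Euc

open Vale.Agent.P366.Stmt Vale.Agent.P366Z Vale.Agent.P366P Vale.Agent.P366Y.C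

variable {G : Field n} {u : E n → ℝ} {V : Fin n → E n → ℝ}

theorem nvE_sq (hG : Met G) (u : E n → ℝ) (i : Fin n) (y : E n) :
    nv G u i y ^ 2 ≤ up G i i y * (1 - (ww G 1 u y)⁻¹ ^ 2) := by
  have h1 := hG.up_cs y (Pi.single i 1) fun j => pd j u y
  have h3 := w_pos hG u y
  simp only [Pi.single_apply, mul_ite, mul_one, mul_zero, ite_mul, zero_mul, Finset.sum_ite_eq',
    Finset.mem_univ, if_true, Finset.sum_ite_irrel, Finset.sum_const_zero] at h1
  have h4 : gr G u i y ^ 2 ≤ up G i i y * ip G u u y := h1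
  have h5 : ip G u u y = ww G 1 u y ^ 2 - 1 := by rw [w_sq hG]; ring
  rw [nv, div_pow, div_le_iff₀ (by positivity)]
  refine h4.trans_eq ?_
  rw [h5]; field_simp

/-- the covariant derivative of a 1-form -/
def cdE (G : Field n) (V : Fin n → E n → ℝ) (j k : Fin n) (y : E n) : ℝ :=
  pd j (V k) y - ∑ i, V i y * chr G i j k y

theorem drE (hG : Met G) (hV : ∀ i, Smooth (V i)) (hu : Smooth u) (y : E n) :
    dn G u (fun z => ∑ i, V i z * nv G u i z) y -
      ∑ i, V i y * gr (gb G 1 u) (fun z => Real.log (ww G 1 u z)) i y =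
    ∑ j, ∑ k, cdE G V j k y * nv G u j y * nv G u k y := by
  have d := fun i => (sm_nv hG hu i).diff y
  simp only [← acc_nv hG hu, dn_eq hG, acc, cd, cdE,
    pd_sum _ fun i _ => ((hV i).diff y).fun_mul (d i), pd_mul ((hV _).diff y) (d _),
    Finset.sum_mul, Finset.mul_sum, add_mul, mul_add, sub_mul, Finset.sum_add_distrib,
    Finset.sum_sub_distrib]
  have e1 : ∑ j, ∑ i, V i y * pd j (nv G u i) y * nv G u j y =
      ∑ i, ∑ j, V i y * (nv G u j y * pd j (nv G u i) y) := by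
    rw [Finset.sum_comm]
    exact Finset.sum_congr rfl fun _ _ => Finset.sum_congr rfl fun _ _ => by ring
  have e2 : ∑ j, ∑ k, ∑ i, V i y * chr G i j k y * nv G u j y * nv G u k y =
      ∑ i, ∑ j, ∑ k, V i y * (nv G u j y * (chr G i j k y * nv G u k y)) := by
    rw [Finset.sum_congr rfl fun j _ => Finset.sum_comm, Finset.sum_comm]
    exact Finset.sum_congr rfl fun _ _ => Finset.sum_congr rfl fun _ _ =>
      Finset.sum_congr rfl fun _ _ => by ring
  have e3 : ∑ j, ∑ i, pd j (V i) y * nv G u i y * nv G u j y =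
      ∑ j, ∑ k, pd j (V k) y * nv G u j y * nv G u k y :=
    Finset.sum_congr rfl fun _ _ => Finset.sum_congr rfl fun _ _ => by ring
  rw [e2, ← e3, ← e1]
  ring

theorem drE_le (hG : Met G) (u : E n → ℝ) (T : Fin n → Fin n → ℝ) (y : E n) :
    |∑ j, ∑ k, T j k * nv G u j y * nv G u k y| ≤
      (∑ j, ∑ k, |T j k| * (up G j j y + up G k k y)) * (1 - (ww G 1 u y)⁻¹ ^ 2) := by
  rw [Finset.sum_mul]
  refine (Finset.abs_sum_le_sum_abs _ _).trans (Finset.sum_le_sum fun j _ => ?_)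
  rw [Finset.sum_mul]
  refine (Finset.abs_sum_le_sum_abs _ _).trans (Finset.sum_le_sum fun k _ => ?_)
  rw [mul_assoc, abs_mul, mul_assoc]
  refine mul_le_mul_of_nonneg_left (abs_le.2 ⟨?_, ?_⟩) (abs_nonneg _) <;>
    nlinarith [nvE_sq hG u j y, nvE_sq hG u k y, sq_nonneg (nv G u j y + nv G u k y),
      sq_nonneg (nv G u j y - nv G u k y), sq_nonneg (nv G u j y), sq_nonneg (nv G u k y)]

end Euc

open Vale.Agent.P366M Vale.Agent.P366M.An Vale.Agent.P366M.Gr Vale.Agent.P366M.Y.C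
open Vale.Agent.P210G

variable {X : Type} [Mf0 n X] {g : Fld n X} {v : Fin n → X → ℝ} {K O : Set X} {w φ : X → ℝ} {x : X}

/-- `u = 1 / W` -/
abbrev iw (g : Fld n X) (w : X → ℝ) : X → ℝ := fun y => (ww g 1 w y)⁻¹

theorem iw_pos (hg : Met g) (w : X → ℝ) (x : X) : 0 < iw g w x := inv_pos.2 (w_pos hg w x)

theorem iw_le (hg : Met g) (w : X → ℝ) (x : X) : iw g w x ≤ 1 := (P210C.winv hg w x).2

theorem iw_sq (hg : Met g) (w : X → ℝ) (x : X) : 0 ≤ 1 - iw g w x ^ 2 := by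
  nlinarith [iw_pos hg w x, iw_le hg w x]

theorem sm_iw (hg : Met g) (hw : Smooth w) : Smooth (iw g w) :=
  CD.inv (sm_w hg hw) fun x => (w_pos hg w x).ne'

theorem ip_iw (hg : Met g) (w : X → ℝ) (x : X) : ip g w w x * iw g w x ^ 2 = 1 - iw g w x ^ 2 := by
  have h0 := (w_pos hg w x).ne'
  have h1 : ip g w w x = ww g 1 w x ^ 2 - 1 := by rw [w_sq hg]; ring
  rw [h1]; field_simp

theorem iw_dn (hg : Met g) (w : X → ℝ) (x : X) : iw g w x * dn g w w x = 1 - iw g w x ^ 2 := by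
  have h0 := (w_pos hg w x).ne'
  rw [dn_self hg]; field_simp

theorem b2_le' (hg : Met g) {T : Fld n X} (hT : ∀ i j, T x i j = T x j i) (w : X → ℝ) :
    |b2 g T w w x / ww g 1 w x ^ 2| ≤ √(normSq g T x) * (1 - iw g w x ^ 2) := by
  obtain ⟨h0, -, -, h1, h2, -⟩ := orth n X g T w w x hg hT
  have h3 := hg.ip_nonneg w x
  have h4 : |b2 g T w w x| ≤ √(normSq g T x) * ip g w w x := by
    refine abs_le_of_sq_le_sq (h2.trans ?_) (by positivity)
    rw [mul_pow, Real.sq_sqrt h0]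
    nlinarith [mul_le_mul_of_nonneg_right h1 h3]
  rw [← ip_iw hg, abs_div, abs_sq, div_eq_mul_inv, ← inv_pow, ← mul_assoc]
  exact mul_le_mul_of_nonneg_right h4 (sq_nonneg _)

theorem abs_dn_le' (hg : Met g) (w φ : X → ℝ) (x : X) :
    |dn g w φ x| ≤ gn g w x * iw g w x * gn g φ x := by
  rw [dn, abs_div, abs_of_pos (w_pos hg w x), div_eq_mul_inv, mul_right_comm]
  exact mul_le_mul_of_nonneg_right (hg.abs_ip_le w φ x) (iw_pos hg w x).le

/-- the covariant derivative of the drift in the direction of the normal -/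
theorem dr_bd (hg : Met g) (hv : CC ∞ v) (hK : IsCompact K) : ∃ C ≥ (0 : ℝ), ∀ x ∈ K, ∀ w,
    Smooth w → |dn g w (ev v (nv g w)) x - iv (gb g 1 w) v (df (lw g w)) x| ≤
      C * (1 - iw g w x ^ 2) := by
  refine bd_on hK (fun x a b hab h w hw => (h w hw).trans (mul_le_mul_of_nonneg_right hab
    (iw_sq hg w x))) fun x _ => ?_
  have he := ch_mem x
  have hG := hg.rep he
  have c1 := fun i j => (hG.sm_up i j).cont
  have c2 : ∀ j k, Continuous (cdE (rep (ch x) g) (repC (ch x) v) j k) := fun j k =>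
    (P366.Stmt.Smooth.pd (hv _ he k) j).cont.sub (continuous_finsetSum _ fun i _ =>
      (hv _ he i).continuous.mul (hG.sm_chr i j k).cont)
  obtain ⟨C, -, hC⟩ := bd_cont (isCompact_closedBall (pt x) 1) (f := fun y => ∑ j, ∑ k,
    |cdE (rep (ch x) g) (repC (ch x) v) j k y| *
      (P366.Stmt.up (rep (ch x) g) j j y + P366.Stmt.up (rep (ch x) g) k k y)) (by fun_prop)
  refine ⟨C, ev_pt.2 ?_⟩
  filter_upwards [closedBall_mem_nhds (pt x) one_pos] with y hy w hw
  have k := drE hG (hv _ he) (hw _ he) y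
  have e1 : (fun z => ∑ i, repC (ch x) v i z * P366P.nv (rep (ch x) g) (loc (ch x) w) i z) =
      loc (ch x) (ev v (nv g w)) := by
    funext z; rw [← repV_nv he g hw, dot_rep he]; rfl
  have e2 : (fun y => Real.log (P366Y.C.ww (rep (ch x) g) 1 (loc (ch x) w) y)) =
      loc (ch x) (lw g w) := by rw [← loc_w he g hw]; rfl
  rw [e1, e2, ← loc_dn he g hw (Smooth.diff (cd_ev hv (cv_nv hg hw))), ← rep_g he g hw,
    ← repV_gr he _ (sm_lw hg hw).diff, dot_rep he] at k
  rw [iv_eq_ev, sh_df]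
  refine (congrArg abs k).trans_le ((drE_le hG _ _ y).trans ?_)
  rw [← loc_w he g hw]
  exact mul_le_mul_of_nonneg_right ((le_abs_self _).trans (hC y hy)) (iw_sq hg w _)

/-- **the equation of Jacobi with a drift**, for `u = 1 / W` -/
theorem jac_v (hg : Met g) (hv' : CC ∞ v) (hK : IsCompact K) : ∃ C ≥ (0 : ℝ), ∀ x ∈ K, ∀ w,
    Smooth w → |Lv (gb g 1 w) v (iw g w) x + iw g w x * (a2 g w x + dn g w (hv g v w) x)| ≤
      C * iw g w x * (1 - iw g w x ^ 2) := by
  obtain ⟨C₁, C1, h1⟩ := dr_bd hg hv' hK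
  obtain ⟨C₂, C2, h2⟩ := bd_cont hK (hg.sm_normSq hg.sm_ric).cont.sqrt
  refine ⟨C₁ + C₂, by positivity, fun x hx w hw => ?_⟩
  have u0 := iw_pos hg w x
  have u1 := iw_le hg w x
  have j := jac_m (f := fun _ => 0) hg cd_const hw x
  have j5 : b2 g (hess g fun _ => 0) w w x = 0 := by simp [b2, P210C.hess_const]
  rw [P210C.hw_zero, ip_const_left, j5, zero_div] at j
  have e1 : iw g w = fun y => (fun t => Real.exp (-t)) (lw g w y) := by
    funext y; simp only [lw, Real.exp_neg, Real.exp_log (w_pos hg w y)]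
  have d0 : ∀ t, HasDerivAt (fun t : ℝ => Real.exp (-t)) (-Real.exp (-t)) t := fun t => by
    simpa using (hasDerivAt_neg t).exp
  have d1 : deriv (fun t : ℝ => Real.exp (-t)) = fun t => -Real.exp (-t) :=
    funext fun t => (d0 t).deriv
  have e2 := Lv_comp (v := v) (met_g hg hw) ((sm_lw hg hw).c2 x)
    (χ := fun t => Real.exp (-t)) (by fun_prop)
  have d2 : deriv (fun t : ℝ => -Real.exp (-t)) (lw g w x) = Real.exp (-lw g w x) :=
    (d0 _).fun_neg.deriv.trans (neg_neg _)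
  rw [← e1, d1, d2] at e2
  have e3 : Real.exp (-lw g w x) = iw g w x := (congrFun e1 x).symm
  have e4 : dn g w (hv g v w) x = dn g w (dv g (nv g w)) x - dn g w (ev v (nv g w)) x := by
    rw [dn_lin (s := 1) (t := -1) (w := dv g (nv g w)) (ζ := ev v (nv g w)) fun i => by
      rw [show hv g v w = fun y => dv g (nv g w) y - ev v (nv g w) y from rfl,
        pd_sub ((hg.sm_dv (cv_nv hg hw)).diff x) (Smooth.diff (cd_ev hv' (cv_nv hg hw)) x)]; ring]
    ring
  have k1 := h1 x hx w hw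
  have k2 := (b2_le' hg ((RciH.sy_rc hg).sy x) w).trans (mul_le_mul_of_nonneg_right
    ((le_abs_self _).trans (h2 x hx)) (iw_sq hg w x))
  have e5 : Lv (gb g 1 w) v (iw g w) x + iw g w x * (a2 g w x + dn g w (hv g v w) x) =
      -(iw g w x * (dn g w (ev v (nv g w)) x - iv (gb g 1 w) v (df (lw g w)) x +
        b2 g (ric g) w w x / ww g 1 w x ^ 2)) := by
    change lap _ (lw g w) x + 0 = _ + ip _ (lw g w) (lw g w) x at j
    simp only [e3] at e2
    rw [e2, Lv, e4]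
    linear_combination (-iw g w x) * j
  rw [e5, abs_neg, abs_mul, abs_of_pos u0, mul_comm (C₁ + C₂), mul_assoc]
  refine mul_le_mul_of_nonneg_left ((abs_add_le _ _).trans ?_) u0.le
  rw [add_mul]
  exact add_le_add k1 k2

/-- the operator of the graph on a fixed function -/
theorem Lv_gb (hg : Met g) (hw : Smooth w) (hφ : CAt 2 φ x) :
    Lv (gb g 1 w) v φ x = Lv g v φ x - b2 g (hess g φ) w w x / ww g 1 w x ^ 2 -
      hv g v w x * dn g w φ x := by
  have h1 := lap_g hg hw hφ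
  rw [tr_gm hg, ← hg.lap_eq_tr hφ] at h1
  rw [Lv, Lv, iv_g hg, ev_df_nv hg, hv, Dv]
  linarith

theorem Lv_bd (hg : Met g) (hv' : CC ∞ v) (hφ : Smooth φ) (hK : IsCompact K) :
    ∃ C ≥ (0 : ℝ), ∀ x ∈ K, ∀ w, Smooth w →
      |Lv (gb g 1 w) v φ x + hv g v w x * dn g w φ x| ≤ C := by
  obtain ⟨C₁, C1, h1⟩ := bd_cont hK (sm_Lv hg hv' hφ).cont
  obtain ⟨C₂, C2, h2⟩ := bd_cont hK (hg.sm_normSq (hg.sm_hess hφ)).cont.sqrt
  refine ⟨C₁ + C₂, by positivity, fun x hx w hw => ?_⟩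
  rw [Lv_gb hg hw (hφ.c2 x), sub_add_cancel]
  exact (abs_sub _ _).trans (add_le_add (h1 x hx) ((b2_le hg (hg.hess_sy (hφ.c2 x)) w).trans
    ((le_abs_self _).trans (h2 x hx))))

end Vale.Agent.P210Y
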