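import Vale.Agent.P210R.Sta
import Vale.Agent.P210Y.Decay

/-!
# P210Y: the statement `P210R.PSTEP` (after helper53's `sw1`)
-/

open Filter Topology Set
open scoped ContDiff
open Vale.Agent.P366M Vale.Agent.P366M.Gr Vale.Agent.P366M.Y.C Vale.Agent.P210G
open Vale.Agent.P210R

noncomputable section

namespace Vale.Agent.P210Y

/-- **PSTEP** -/
theorem pstep (hG : GAM) (hL : LSTEP) : PSTEP := by
  obtain ⟨C, C1, hG⟩ := hG
  refine ⟨C, C1, fun n X _ _ g₀ ϱ c₀ hn hg₀ hϱ c0 => ?_⟩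
  obtain ⟨β₀, hL⟩ := hL n X g₀ ϱ c₀ hn hg₀ hϱ c0
  refine ⟨β₀, fun β hβ β0 θ Λ U V j K h q s η d g v θ0 hP sK K0 sup alt q0 q1 s0 η0 d0 hg hup
    hv' => ?_⟩
  obtain ⟨h', O, F, oO, cF, FO, nF, hO, hA⟩ := hG n X g₀ θ Λ U V j h hg₀ θ0 hP
  have KO : ∀ x ∈ O, K x = 0 := fun x hx => by_contra fun k =>
    absurd (sup x k).2 (not_le.2 (hO x hx (sup x k).1))
  obtain ⟨L, L0, hd⟩ := decay0 hg hv' (K := F ∩ {x | ϱ x ≤ 2}) (O := O ∩ {x | ϱ x < 3})
    (cF.inter (isClosed_le hϱ.cont continuous_const)).isCompact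
    (oO.inter (isOpen_lt hϱ.cont continuous_const))
    fun x hx => ⟨FO hx.1, lt_of_le_of_lt hx.2 (by norm_num : (2 : ℝ) < 3)⟩
  obtain ⟨A, A1, W, sW, WO, WU, Wb⟩ := hA ((L + 1 / d) / d + 1)
  have A2 : L + 1 / d < A * d := by
    have := mul_le_mul_of_nonneg_right A1 d0.le
    rw [add_mul, div_mul_cancel₀ _ d0.ne'] at this
    linarith
  have A0 : 0 < A := lt_of_lt_of_le (by positivity) A1
  obtain ⟨ε, ε0, ε1, ε2⟩ : ∃ ε > (0 : ℝ), ε * (A + 1) ^ 2 ≤ η ∧ ε ≤ d ^ 2 / 2 :=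
    ⟨min (η / (A + 1) ^ 2) (d ^ 2 / 2), by positivity,
      (le_div_iff₀ (by positivity)).1 (min_le_left _ _), min_le_right _ _⟩
  obtain ⟨W₀, K₀, cst⟩ : ∃ W₀ K₀, ∀ x, 0 < ϱ x → W x = W₀ ∧ K x = K₀ := by
    rcases alt with k | k
    · refine ⟨A, 0, fun x hx => ?_⟩
      have : x ∈ O := FO (by_contra fun k1 => k x hx (nF x k1).1)
      exact ⟨WO x this, KO x this⟩
    · exact ⟨0, 1, fun x hx => ⟨((WU x (k x hx).1).1 (sup x (by
        rw [(k x hx).2.2]; exact one_ne_zero)).2).trans (k x hx).2.1, (k x hx).2.2⟩⟩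
  obtain ⟨w, v', κ, sw, w0, cv', sκ, hκ, eqn, far, frz⟩ := hL β hβ β0 g v W
    (fun y => s * K y + ε) q (min η (d ^ 2 / 2)) hg hup hv' sW
    (CD.add (CD.mul cd_const sK) cd_const) (fun x => (Wb x).1)
    (fun x => add_pos_of_nonneg_of_pos (mul_nonneg s0.le (K0 x)) ε0) q0 q1 (by positivity)
    ⟨W₀, s * K₀ + ε, fun x hx => ⟨(cst x hx).1, by rw [(cst x hx).2]⟩⟩
  have m1 := min_le_left η (d ^ 2 / 2)
  have e1 : ∀ a, 0 ≤ a → a ≤ (A + 1) ^ 2 → a * ε ≤ η := fun a _ k => by nlinarith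
  refine ⟨h', ε, W, w, κ, v', sW, sw, sκ, cv', w0, fun x => (Wb x).1, fun x => (Wb x).2.2,
    fun x k => (WU x (sup x k).1).1 (sup x k).2, fun x hx => (WU x hx).2,
    ⟨W₀, fun x hx => (cst x hx).1⟩, ε0, by simpa using e1 1 zero_le_one (by nlinarith),
    fun x => e1 _ (Wb x).1 (by nlinarith [(Wb x).2.1]),
    fun x => e1 _ (sq_nonneg _) (by nlinarith [(Wb x).2.1, (Wb x).1]), fun x => (hκ x).1,
    fun x => (hκ x).2.1, fun x => (hκ x).2.2, eqn, fun x hx => ⟨(far x hx).1.trans m1,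
      (far x hx).2.1.trans m1, by linarith [(far x hx).2.2]⟩, frz, fun x hx => ?_⟩
  have xF : x ∈ F := by_contra fun k => hx (nF x k)
  rcases le_total (ϱ x) 2 with k | k
  · obtain ⟨y, hy, k1, k2⟩ := hd x ⟨xF, k⟩ w sw
    refine k1.trans (not_lt.1 fun k3 => ?_)
    rw [(eqn y hy.2).2, Hf, WO y hy.1, KO y hy.1, mul_zero, zero_add] at k2
    have u0 : 0 < uu g w y := iw_pos hg w y
    have u1 : uu g w y ≤ 1 := iw_le hg w y
    have b1 : q * (1 - uu g w y) / w y ≤ 1 / d :=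
      div_le_div₀ zero_le_one (by nlinarith) d0 k3.le
    have b2 : ε / w y ≤ w y := (div_le_iff₀ (w0 y)).2 (by nlinarith)
    have b3 := mul_nonneg (add_nonneg β0.le (hκ y).1) (sub_nonneg.2 b2)
    have b4 := mul_le_mul_of_nonneg_left k3.le A0.le
    linarith
  · have b1 := (abs_le.1 ((far x k).2.1.trans (min_le_right _ _))).2
    rw [KO x (FO xF), mul_zero, zero_add] at b1
    exact (abs_le_of_sq_le_sq' (by linarith) d0.le).2

end Vale.Agent.P210Y
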